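import Vale.Agent.P319.SC.Gro

/-! P319, block SC: GRO with the extra conclusion that the new class is not greater than the
valency of any nondiagonal colour of the old class. -/

namespace Vale.Agent.P319.SC

open Finset

/-- **block GRO**, with the minimality of the valency -/
def GroMinStmt : Prop := ∀ (V ι : Type) [Fintype V] [DecidableEq V] [DecidableEq ι] (m : ℕ)
  (𝒞 : Cfg V ι (m + 6)) (ρ : ι), 2 ≤ (𝒞.cls ρ).card →
  ∃ (v : V) (σ : ι), 𝒞.c1 v = ρ ∧ 2 ≤ ((𝒞.fix v).cls σ).card ∧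
    3 ≤ ((𝒞.fix v).rels σ σ).card ∧
    (∀ T ∈ 𝒞.rels ρ ρ, ∀ a b : V, 𝒞.c1 a = ρ → 𝒞.c2 a b = T → a ≠ b →
      ((𝒞.fix v).cls σ).card ≤ (univ.filter fun z => 𝒞.c2 a z = T).card) ∧
    ((𝒞.rels ρ ρ).card - 1) * ((𝒞.fix v).cls σ).card ≤ (𝒞.cls ρ).card ∧
    (2 ^ (m + 1) * ((𝒞.fix v).cls σ).card ^ 3 ≤ (𝒞.cls ρ).card ^ 3 ∨
      (𝒞.rels ρ ρ).card + 2 ≤ ((𝒞.fix v).rels σ σ).card)

/-- **block GRO**, with minimality -/
theorem gro_min_of (hAM : AMStmt) (hVAN : VanStmt) (hDEG : DegStmt) : GroMinStmt := by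
  intro V ι _ _ _ m 𝒞 ρ hX
  have hm2 : 2 ≤ m + 6 := by omega
  have hm3 : 3 ≤ m + 6 := by omega
  obtain ⟨v, hv', w, hw', hvw⟩ := Finset.one_lt_card.1 hX
  rw [Gro.mem_cls] at hv' hw'
  set T := 𝒞.rels ρ ρ with hT
  have hd : 𝒞.c2 v v ∈ T := (Gro.mem_rels 𝒞 ρ ρ _).2 ⟨v, v, hv', hv', rfl⟩
  have hwT : 𝒞.c2 v w ∈ T.erase (𝒞.c2 v v) := by
    refine mem_erase.2 ⟨?_, (Gro.mem_rels 𝒞 ρ ρ _).2 ⟨v, w, hv', hw', rfl⟩⟩
    intro h
    exact hvw (Gro.eq_of_c2 𝒞 hm2 h.symm rfl)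
  obtain ⟨R, hRT, hmin⟩ := Finset.exists_min_image (T.erase (𝒞.c2 v v))
    (fun S => (univ.filter fun z => 𝒞.c2 v z = S).card) ⟨_, hwT⟩
  have hR := mem_of_mem_erase hRT
  set k := (univ.filter fun z => 𝒞.c2 v z = R).card with hk
  -- `k ≥ 2`
  obtain ⟨w', hw'1, hw'2⟩ := Gro.exists_of_rels 𝒞 hm2 hR hv'
  have hvw' : v ≠ w' := by
    rintro rfl
    exact ne_of_mem_erase hRT hw'2.symm
  have hk1 : k ≠ 1 := by
    have := Gro.card_ne_one 𝒞 hm3 hv' hw'1 hvw'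
    rwa [hw'2] at this
  have hk0 : 0 < k := card_pos.2 ⟨w', mem_filter.2 ⟨mem_univ _, hw'2⟩⟩
  have hk2 : 2 ≤ k := by omega
  -- `(r - 1) k ≤ |X|`
  have hrk : (T.card - 1) * k ≤ (𝒞.cls ρ).card := by
    rw [Gro.card_cls 𝒞 hm2 hv', ← card_erase_of_mem hd, ← hT, ← smul_eq_mul]
    calc (T.erase (𝒞.c2 v v)).card • k
        ≤ ∑ S ∈ T.erase (𝒞.c2 v v), (univ.filter fun z => 𝒞.c2 v z = S).card :=
          Finset.card_nsmul_le_sum _ _ _ hmin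
      _ ≤ _ := Finset.sum_le_sum_of_subset (erase_subset _ _)
  have hclsR : ((𝒞.fix v).cls R).card = k := by rw [Gro.fix_cls]
  have hval : ∀ T' ∈ 𝒞.rels ρ ρ, ∀ a b : V, 𝒞.c1 a = ρ → 𝒞.c2 a b = T' → a ≠ b →
      k ≤ (univ.filter fun z => 𝒞.c2 a z = T').card := by
    intro T' hT' a b ha hab hne
    rw [Gro.ext1 𝒞 hm2 (ha.trans hv'.symm) T']
    refine hmin T' (mem_erase.2 ⟨?_, hT'⟩)
    rintro rfl
    exact hne (Gro.eq_of_c2 𝒞 hm2 hab.symm rfl)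
  by_cases hbig : 2 ^ (m + 1) * k ^ 3 ≤ (𝒞.cls ρ).card ^ 3
  · refine ⟨v, R, hv', by rw [hclsR]; exact hk2, ?_, by rw [hclsR]; exact hval,
      by rw [hclsR]; exact hrk, Or.inl ?_⟩
    · exact Gro.three_rels (𝒞.fix v) (by omega) (by rw [hclsR]; exact hk2)
    · rw [hclsR]; exact hbig
  -- all types `(R, S, R)` occur
  have hvan : ∀ S ∈ T.erase (𝒞.c2 v v), ∃ x y : V, 𝒞.c2 v x = R ∧ 𝒞.c2 x y = S ∧ 𝒞.c2 y v = R := by
    intro S hS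
    refine hVAN V ι (m + 6) 𝒞 hm3 (2 ^ (m + 1)) ?_ ρ R S v hv' hR (mem_of_mem_erase hS) (hmin S hS) ?_
    · intro A h1 h2 h3
      exact hDEG V ι (m + 1) 𝒞 A h1 h2 h3
    · rw [not_le] at hbig
      exact hbig
  set Rt := Gro.tr 𝒞 R with hRt
  have hclsRt : ((𝒞.fix v).cls Rt).card = k := by
    rw [Gro.fix_cls]
    exact Gro.card_tr 𝒞 hm2 hR hv'
  -- the number of relations between `R(v)` and `R^t(v)`
  have hmemRt : ∀ x y, 𝒞.c2 v x = R → 𝒞.c2 y v = R → Gro.c3 𝒞 v x y ∈ (𝒞.fix v).rels R Rt := by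
    intro x y hx hy
    refine (Gro.mem_rels (𝒞.fix v) R Rt _).2 ⟨x, y, ?_, ?_, ?_⟩
    · rw [Gro.fix_c1, hx]
    · rw [Gro.fix_c1, hRt, ← hy, Gro.tr_c2 𝒞 hm2]
    · rw [Gro.fix_c2]
  haveI : Nonempty V := ⟨v⟩
  choose! x y hx hxy hy using hvan
  obtain ⟨h1, h2, h3⟩ : 𝒞.c2 v (x R) = R ∧ 𝒞.c2 (x R) (y R) = R ∧ 𝒞.c2 (y R) v = R :=
    ⟨hx R hRT, hxy R hRT, hy R hRT⟩
  have hfirst : ∀ a b, 𝒞.c2 a b = R → 𝒞.c1 a = 𝒞.c1 v := by
    intro a b h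
    exact Gro.c1_of_c2 𝒞 hm2 (h.trans h1.symm)
  have hne : ∀ a b, 𝒞.c2 a b = R → a ≠ b := by
    rintro a b h rfl
    exact hvw' (Gro.eq_of_c2 𝒞 hm2 (h.trans hw'2.symm) rfl)
  -- a triple of the same colour over `v`
  have hmove : ∀ a b c, 𝒞.c2 a b = R → ∃ x' y', Gro.c3 𝒞 v x' y' = Gro.c3 𝒞 a b c := by
    intro a b c hab
    obtain ⟨x', hx'⟩ := Gro.ext1' 𝒞 hm2 (hfirst a b hab) b
    obtain ⟨y', hy'⟩ := Gro.ext2' 𝒞 hm3 hx'.symm c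
    exact ⟨x', y', hy'⟩
  obtain ⟨x1, y1, e1⟩ := hmove (x R) (y R) v h2
  obtain ⟨x2, y2, e2⟩ := hmove (y R) v (x R) h3
  have g1 : 𝒞.c2 v x1 = R := (Gro.c2_of_c3_12 𝒞 hm3 e1).trans h2
  have g2 : 𝒞.c2 x1 y1 = R := (Gro.c2_of_c3_23 𝒞 hm3 e1).trans h3
  have g3 : 𝒞.c2 y1 v = R := (Gro.c2_swap 𝒞 hm2 (Gro.c2_of_c3_13 𝒞 hm3 e1)).trans h1
  have g4 : 𝒞.c2 v x2 = R := (Gro.c2_of_c3_12 𝒞 hm3 e2).trans h3
  have g5 : 𝒞.c2 x2 y2 = R := (Gro.c2_of_c3_23 𝒞 hm3 e2).trans h1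
  have g6 : 𝒞.c2 y2 v = R := (Gro.c2_swap 𝒞 hm2 (Gro.c2_of_c3_13 𝒞 hm3 e2)).trans h2
  have d01 : Gro.c3 𝒞 v x1 y1 ≠ Gro.c3 𝒞 v (x R) (y R) := by
    rw [e1]
    exact Gro.c3_ne_rot 𝒞 hm3 (hne _ _ h1) (hne _ _ h3).symm (hne _ _ h2)
  have d12 : Gro.c3 𝒞 v x2 y2 ≠ Gro.c3 𝒞 v x1 y1 := by
    rw [e1, e2]
    exact Gro.c3_ne_rot 𝒞 hm3 (hne _ _ h2) (hne _ _ h1).symm (hne _ _ h3)
  have d20 : Gro.c3 𝒞 v (x R) (y R) ≠ Gro.c3 𝒞 v x2 y2 := by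
    rw [e2]
    exact Gro.c3_ne_rot 𝒞 hm3 (hne _ _ h3) (hne _ _ h2).symm (hne _ _ h1)
  have hcard : T.card + 1 ≤ ((𝒞.fix v).rels R Rt).card := by
    set T3 : Finset ι := {Gro.c3 𝒞 v (x R) (y R), Gro.c3 𝒞 v x1 y1, Gro.c3 𝒞 v x2 y2} with hT3
    set U := ((T.erase (𝒞.c2 v v)).erase R).image fun S => Gro.c3 𝒞 v (x S) (y S) with hU
    have hsub : U ∪ T3 ⊆ (𝒞.fix v).rels R Rt := by
      intro i hi
      rcases mem_union.1 hi with hi | hi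
      · obtain ⟨S, hS, rfl⟩ := mem_image.1 hi
        have hS' := mem_of_mem_erase hS
        exact hmemRt _ _ (hx S hS') (hy S hS')
      · rw [hT3] at hi
        simp only [mem_insert, mem_singleton] at hi
        rcases hi with rfl | rfl | rfl
        · exact hmemRt _ _ h1 h3
        · exact hmemRt _ _ g1 g3
        · exact hmemRt _ _ g4 g6
    have hdisj : Disjoint U T3 := by
      rw [Finset.disjoint_left]
      intro i hi hi'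
      obtain ⟨S, hS, rfl⟩ := mem_image.1 hi
      have hS' := mem_of_mem_erase hS
      apply ne_of_mem_erase hS
      rw [← hxy S hS']
      rw [hT3] at hi'
      simp only [mem_insert, mem_singleton] at hi'
      rcases hi' with h | h | h
      · exact (Gro.c2_of_c3_23 𝒞 hm3 h).trans h2
      · exact (Gro.c2_of_c3_23 𝒞 hm3 h).trans g2
      · exact (Gro.c2_of_c3_23 𝒞 hm3 h).trans g5
    have hUc : U.card = T.card - 2 := by
      rw [hU, card_image_of_injOn, card_erase_of_mem hRT, card_erase_of_mem hd]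
      · omega
      · intro S hS S' hS' h
        have hS1 := mem_of_mem_erase (mem_coe.1 hS)
        have hS2 := mem_of_mem_erase (mem_coe.1 hS')
        rw [← hxy S hS1, ← hxy S' hS2]
        exact Gro.c2_of_c3_23 𝒞 hm3 h
    have hT3c : T3.card = 3 := by
      rw [hT3]
      exact card_eq_three.2 ⟨_, _, _, d01.symm, d20, d12.symm, rfl⟩
    have h4 := card_le_card hsub
    rw [card_union_of_disjoint hdisj, hUc, hT3c] at h4
    have h5 : 2 ≤ T.card := Finset.one_lt_card.2 ⟨_, hd, _, hR, (ne_of_mem_erase hRT).symm⟩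
    omega
  have ham := hAM V ι (m + 5) (𝒞.fix v) (by omega) R Rt
  have o0 := Gro.odd_rels 𝒞 hm2 hv'
  have o1 : Odd ((𝒞.fix v).rels R R).card :=
    Gro.odd_rels (𝒞.fix v) (by omega) (v := w') (by rw [Gro.fix_c1, hw'2])
  have o2 : Odd ((𝒞.fix v).rels Rt Rt).card :=
    Gro.odd_rels (𝒞.fix v) (by omega) (v := y R) (by
      rw [Gro.fix_c1, hRt, ← Gro.tr_c2 𝒞 hm2, h3])
  rw [← hT] at o0
  have hor : T.card + 2 ≤ ((𝒞.fix v).rels R R).card ∨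
      T.card + 2 ≤ ((𝒞.fix v).rels Rt Rt).card := by
    obtain ⟨a, ha⟩ := o0
    obtain ⟨b, hb⟩ := o1
    obtain ⟨c, hc⟩ := o2
    omega
  rcases hor with h | h
  · refine ⟨v, R, hv', by rw [hclsR]; exact hk2, ?_, by rw [hclsR]; exact hval,
      by rw [hclsR]; exact hrk, Or.inr h⟩
    exact Gro.three_rels (𝒞.fix v) (by omega) (by rw [hclsR]; exact hk2)
  · refine ⟨v, Rt, hv', by rw [hclsRt]; exact hk2, ?_, by rw [hclsRt]; exact hval,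
      by rw [hclsRt]; exact hrk, Or.inr h⟩
    exact Gro.three_rels (𝒞.fix v) (by omega) (by rw [hclsRt]; exact hk2)

end Vale.Agent.P319.SC
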