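import Vale.Agent.P319.SC.H323.Block
import Vale.Agent.P319.SC.H773.GroMin

/-! P319, block SC: package MAIN34 (the accounting of the `m ^ (4/3)` theorem). -/

namespace Vale.Agent.P319.SC.H323

open Finset Vale.Agent.P319.SC

set_option linter.all false

/-- the bound for the ranks over few points, from a bound for all configurations -/
theorem rb_of {V ι : Type} [Fintype V] [DecidableEq V] [DecidableEq ι] (X : Finset V) (Q M : ℕ)
    (hM : 2 ≤ M)
    (hP : ∀ (m : ℕ) (𝒟 : Cfg V ι m), M ≤ m → ∀ a ∈ X, 𝒟.cls (𝒟.c1 a) ⊆ X →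
      (𝒟.rels (𝒟.c1 a) (𝒟.c1 a)).card ≤ Q) :
    ∀ (j : ℕ) (𝒟 : Cfg V ι (M + j)), (∀ a b, 𝒟.c1 a = 𝒟.c1 b → a ∈ X → b ∈ X) →
      RB X Q M j 𝒟 := by
  intro j
  induction j with
  | zero =>
    intro 𝒟 hX a ha
    refine hP _ 𝒟 (by omega) a ha fun b hb => ?_
    exact hX a b ((𝒟.mem_cls _ _).1 hb).symm ha
  | succ j ih =>
    intro 𝒟 hX
    refine ⟨fun a ha => hP _ 𝒟 (by omega) a ha fun b hb => ?_, fun x hx => ?_⟩
    · exact hX a b ((𝒟.mem_cls _ _).1 hb).symm ha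
    · refine ih (𝒟.fix x) fun a b hab ha => ?_
      have e1 : (𝒟.fix x).c1 a = 𝒟.c2 x a := Cfg.fix_c1 (m := M + j) 𝒟 (by omega) x a
      have e2 : (𝒟.fix x).c1 b = 𝒟.c2 x b := Cfg.fix_c1 (m := M + j) 𝒟 (by omega) x b
      rw [e1, e2] at hab
      exact hX a b (𝒟.c1_of_c2 (by omega) hab).2 ha

theorem two_le_of_rels {V ι : Type} [Fintype V] [DecidableEq V] [DecidableEq ι] {m : ℕ}
    (𝒞 : Cfg V ι m) (ρ : ι) (h : 2 ≤ (𝒞.rels ρ ρ).card) : 2 ≤ (𝒞.cls ρ).card := by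
  have h1 : (𝒞.rels ρ ρ).card ≤ (𝒞.cls ρ).card * (𝒞.cls ρ).card := by
    rw [← card_product]
    exact card_image_le
  by_contra hc
  have h2 : (𝒞.cls ρ).card ≤ 1 := by omega
  have h3 : (𝒞.cls ρ).card * (𝒞.cls ρ).card ≤ 1 * 1 := Nat.mul_le_mul h2 h2
  omega

theorem bigRank_of (hD : DegStmt) {V ι : Type} [Fintype V] [DecidableEq V] [DecidableEq ι] {m : ℕ}
    (hm : 5 ≤ m) (𝒞 : Cfg V ι m) : BigRank 𝒞 (2 ^ (m - 5)) := by
  obtain ⟨k, rfl⟩ : ∃ k, m = k + 5 := ⟨m - 5, by omega⟩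
  intro A h1 h2 h3
  rw [Nat.add_sub_cancel]
  exact hD V ι k 𝒞 A h1 h2 h3

/-- `6 W 2^{(W+1)(2W+5)} 2^{2(W+1)} ≤ 2^{2W²+10W+10}` -/
theorem par_bound (W Q m : ℕ) (hQ : Q ≤ 2 ^ (W + 1)) (hm : 2 * W ^ 2 + 10 * W + 15 ≤ m) :
    6 * W * (2 ^ (W + 1)) ^ (2 * W + 5) * Q ^ 2 ≤ 2 ^ (m - 5) := by
  have h1 : W ≤ 2 ^ W := Nat.lt_two_pow_self.le
  calc 6 * W * (2 ^ (W + 1)) ^ (2 * W + 5) * Q ^ 2
      ≤ 2 ^ 3 * 2 ^ W * (2 ^ (W + 1)) ^ (2 * W + 5) * (2 ^ (W + 1)) ^ 2 := by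
        refine Nat.mul_le_mul (Nat.mul_le_mul_right _ (Nat.mul_le_mul (by norm_num) h1)) ?_
        exact Nat.pow_le_pow_left hQ 2
    _ = 2 ^ (3 + W + (W + 1) * (2 * W + 5) + (W + 1) * 2) := by
        rw [← pow_mul, ← pow_mul, ← pow_add, ← pow_add, ← pow_add]
    _ ≤ 2 ^ (m - 5) := by
        refine Nat.pow_le_pow_right (by norm_num) ?_
        have : 3 + W + (W + 1) * (2 * W + 5) + (W + 1) * 2 = 2 * W ^ 2 + 10 * W + 10 := by ring
        omega

/-- the chain -/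
theorem chain34 (hB : BlockStmt) (hG : GroMinStmt) (hD : DegStmt) (V ι : Type) [Fintype V]
    [DecidableEq V] [DecidableEq ι] (W : ℕ) (hW : 1 ≤ W) :
    ∀ (t m : ℕ) (𝒞 : Cfg V ι m), t + (12 * W ^ 3 + 2 * W ^ 2 + 13 * W + 21) ≤ m →
      ∀ (ρ : ι) (i : ℕ), i ≤ 4 * W → 2 ≤ (𝒞.cls ρ).card →
      3 * 6 ^ i ≤ 5 ^ i * (𝒞.rels ρ ρ).card →
      2 ^ (W * t) ≤ (𝒞.cls ρ).card * 2 ^ (W ^ 2 * (4 * W - i)) := by
  intro t
  induction t using Nat.strong_induction_on with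
  | _ t ih =>
  intro m 𝒞 hm ρ i hi h2 hr
  rcases Nat.eq_zero_or_pos t with rfl | ht
  · rw [mul_zero, pow_zero]
    exact Nat.mul_pos (by omega) (Nat.pow_pos (by norm_num))
  set n := (𝒞.cls ρ).card with hn
  set r := (𝒞.rels ρ ρ).card with hrdef
  -- the big gain
  have big : ∀ (m' : ℕ) (_ : m' + 6 = m) (𝒟 : Cfg V ι (m' + 5)) (σ : ι), 2 ≤ (𝒟.cls σ).card →
      3 ≤ (𝒟.rels σ σ).card → 2 ^ (m' + 1) * (𝒟.cls σ).card ^ 3 ≤ n ^ 3 →
      2 ^ (W * t) ≤ n * 2 ^ (W ^ 2 * (4 * W - i)) := by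
    intro m' hm' 𝒟 σ k1 k2 k3
    have k4 := ih (t - 1) (by omega) (m' + 5) 𝒟 (by omega) σ 0 (by omega) k1 (by omega)
    have k5 : (2 ^ (4 * W ^ 3 + W) * (𝒟.cls σ).card) ^ 3 ≤ n ^ 3 := by
      refine le_trans ?_ k3
      rw [mul_pow, ← pow_mul]
      refine Nat.mul_le_mul_right _ (Nat.pow_le_pow_right (by norm_num) ?_)
      omega
    have k6 : 2 ^ (4 * W ^ 3 + W) * (𝒟.cls σ).card ≤ n :=
      (Nat.pow_le_pow_iff_left (by norm_num)).1 k5
    calc 2 ^ (W * t) = 2 ^ (W * (t - 1)) * 2 ^ W := by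
          rw [← pow_add]; congr 1
          obtain ⟨t', rfl⟩ : ∃ t', t = t' + 1 := ⟨t - 1, by omega⟩
          rw [Nat.add_sub_cancel]; ring
      _ ≤ ((𝒟.cls σ).card * 2 ^ (W ^ 2 * (4 * W - 0))) * 2 ^ W := Nat.mul_le_mul_right _ k4
      _ = 2 ^ (4 * W ^ 3 + W) * (𝒟.cls σ).card := by
          rw [mul_assoc, ← pow_add, mul_comm]
          congr 2
          rw [Nat.sub_zero]; ring
      _ ≤ n := k6
      _ ≤ n * 2 ^ (W ^ 2 * (4 * W - i)) := Nat.le_mul_of_pos_right _ (Nat.pow_pos (by norm_num))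
  obtain ⟨m', hm'⟩ : ∃ m', m' + 6 = m := ⟨m - 6, by omega⟩
  by_cases hA : 2 ^ W < r ∨ ∃ a z, 𝒞.c1 a = ρ ∧ 𝒞.c1 z = ρ ∧ a ≠ z ∧
      𝒞.val a (𝒞.c2 a z) * 2 ^ W ≤ n
  · -- large rank or a light colour: a gain of `W` bits
    subst hm'
    obtain ⟨v, σ, hv, hs2, hs3, hmin, hmul, hor⟩ := hG V ι m' 𝒞 ρ h2
    have hgain : ((𝒞.fix v).cls σ).card * 2 ^ W ≤ n := by
      rcases hA with hA | ⟨a, z, ha, hz, haz, hval⟩
      · calc ((𝒞.fix v).cls σ).card * 2 ^ W = 2 ^ W * ((𝒞.fix v).cls σ).card := mul_comm _ _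
          _ ≤ (r - 1) * ((𝒞.fix v).cls σ).card := Nat.mul_le_mul_right _ (by omega)
          _ ≤ n := hmul
      · refine le_trans (Nat.mul_le_mul_right _ ?_) hval
        exact hmin _ ((𝒞.mem_rels _ _ _).2 ⟨a, z, ha, hz, rfl⟩) a z ha rfl haz
    rcases hor with hor | hor
    · exact big m' rfl (𝒞.fix v) σ hs2 hs3 hor
    · have k4 := ih (t - 1) (by omega) (m' + 5) (𝒞.fix v) (by omega) σ i hi hs2
        (hr.trans (Nat.mul_le_mul_left _ (by omega)))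
      calc 2 ^ (W * t) = 2 ^ (W * (t - 1)) * 2 ^ W := by
            rw [← pow_add]; congr 1
            obtain ⟨t', rfl⟩ : ∃ t', t = t' + 1 := ⟨t - 1, by omega⟩
            rw [Nat.add_sub_cancel]; ring
        _ ≤ (((𝒞.fix v).cls σ).card * 2 ^ (W ^ 2 * (4 * W - i))) * 2 ^ W :=
            Nat.mul_le_mul_right _ k4
        _ = (((𝒞.fix v).cls σ).card * 2 ^ W) * 2 ^ (W ^ 2 * (4 * W - i)) := by ring
        _ ≤ n * 2 ^ (W ^ 2 * (4 * W - i)) := Nat.mul_le_mul_right _ hgain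
  · push Not at hA
    obtain ⟨hrW, hval⟩ := hA
    -- the stage is not the last one
    have hi' : i < 4 * W := by
      rcases Nat.lt_or_ge i (4 * W) with h | h
      · exact h
      exfalso
      have hi4 : i = 4 * W := by omega
      have e1 : 3 * 6 ^ (4 * W) ≤ 5 ^ (4 * W) * 2 ^ W := by
        rw [hi4] at hr
        exact hr.trans (Nat.mul_le_mul_left _ hrW)
      have e2 : 5 ^ (4 * W) * 2 ^ W = 1250 ^ W := by
        rw [pow_mul, ← mul_pow]; norm_num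
      have e3 : 6 ^ (4 * W) = 1296 ^ W := by rw [pow_mul]; norm_num
      have e4 : 1250 ^ W ≤ 1296 ^ W := Nat.pow_le_pow_left (by norm_num) _
      have e5 : 0 < 1296 ^ W := Nat.pow_pos (by norm_num)
      rw [e2, e3] at e1
      omega
    have hWt : W ^ 2 * (4 * W - i) = W ^ 2 * (4 * W - (i + 1)) + W ^ 2 := by
      obtain ⟨d, hd⟩ : ∃ d, 4 * W = i + 1 + d := ⟨4 * W - (i + 1), by omega⟩
      have h1 : 4 * W - i = d + 1 := by omega
      have h2 : 4 * W - (i + 1) = d := by omega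
      rw [h1, h2]; ring
    have hWW : W ≤ W ^ 2 := by nlinarith
    rcases Nat.lt_or_ge r 10 with h10 | h10
    · -- small rank: GRO
      subst hm'
      obtain ⟨v, σ, hv, hs2, hs3, hmin, hmul, hor⟩ := hG V ι m' 𝒞 ρ h2
      rcases hor with hor | hor
      · exact big m' rfl (𝒞.fix v) σ hs2 hs3 hor
      · have hr3 : 3 ≤ r := Gro.three_rels 𝒞 (by omega) h2
        have hle : ((𝒞.fix v).cls σ).card ≤ n := by
          refine le_trans ?_ hmul
          exact Nat.le_mul_of_pos_left _ (by omega)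
        have k4 := ih (t - 1) (by omega) (m' + 5) (𝒞.fix v) (by omega) σ (i + 1) (by omega) hs2
          (by
            have e1 : 5 ^ (i + 1) * (r + 2) ≤ 5 ^ (i + 1) * ((𝒞.fix v).rels σ σ).card :=
              Nat.mul_le_mul_left _ hor
            refine le_trans ?_ e1
            have e2 : 5 ^ i * (6 * r) ≤ 5 ^ i * (5 * (r + 2)) := Nat.mul_le_mul_left _ (by omega)
            calc 3 * 6 ^ (i + 1) = 6 * (3 * 6 ^ i) := by ring
              _ ≤ 6 * (5 ^ i * r) := Nat.mul_le_mul_left _ hr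
              _ = 5 ^ i * (6 * r) := by ring
              _ ≤ 5 ^ i * (5 * (r + 2)) := e2
              _ = 5 ^ (i + 1) * (r + 2) := by ring)
        calc 2 ^ (W * t) = 2 ^ (W * (t - 1)) * 2 ^ W := by
              rw [← pow_add]; congr 1
              obtain ⟨t', rfl⟩ : ∃ t', t = t' + 1 := ⟨t - 1, by omega⟩
              rw [Nat.add_sub_cancel]; ring
          _ ≤ (((𝒞.fix v).cls σ).card * 2 ^ (W ^ 2 * (4 * W - (i + 1)))) * 2 ^ (W ^ 2) :=
              Nat.mul_le_mul k4 (Nat.pow_le_pow_right (by norm_num) hWW)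
          _ = ((𝒞.fix v).cls σ).card * 2 ^ (W ^ 2 * (4 * W - i)) := by
              rw [mul_assoc, ← pow_add, ← hWt]
          _ ≤ n * 2 ^ (W ^ 2 * (4 * W - i)) := Nat.mul_le_mul_right _ hle
    · -- the block lemma
      rcases Nat.lt_or_ge t W with htW | htW
      · calc 2 ^ (W * t) ≤ 2 ^ (W ^ 2 * (4 * W - i)) := by
              refine Nat.pow_le_pow_right (by norm_num) ?_
              rw [hWt]
              have : W * t ≤ W * W := Nat.mul_le_mul_left _ htW.le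
              have e : W * W = W ^ 2 := by ring
              omega
          _ ≤ n * 2 ^ (W ^ 2 * (4 * W - i)) := Nat.le_mul_of_pos_left _ (by omega)
      by_contra hcon
      rw [not_le] at hcon
      obtain ⟨M, rfl⟩ : ∃ M, m = M + W := ⟨m - W, by omega⟩
      set Q := (4 * r - 5) / 3 with hQ
      have hQ1 : 3 * Q + 4 < 4 * r := by omega
      have hQ2 : 6 * r ≤ 5 * (Q + 1) := by omega
      have hrb : RB (𝒞.cls ρ) Q M W 𝒞 := by
        refine rb_of (𝒞.cls ρ) Q M (by omega) ?_ W 𝒞 ?_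
        · intro m₁ 𝒟 hm₁ a ha hsub
          by_contra hlt
          rw [not_le] at hlt
          have c1 : 2 ≤ (𝒟.cls (𝒟.c1 a)).card := two_le_of_rels _ _ (by omega)
          have k4 := ih (t - W) (by omega) m₁ 𝒟 (by omega) (𝒟.c1 a) (i + 1) (by omega) c1
            (by
              have e1 : 5 ^ (i + 1) * (Q + 1) ≤ 5 ^ (i + 1) * (𝒟.rels (𝒟.c1 a) (𝒟.c1 a)).card :=
                Nat.mul_le_mul_left _ hlt
              refine le_trans ?_ e1
              calc 3 * 6 ^ (i + 1) = 6 * (3 * 6 ^ i) := by ring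
                _ ≤ 6 * (5 ^ i * r) := Nat.mul_le_mul_left _ hr
                _ = 5 ^ i * (6 * r) := by ring
                _ ≤ 5 ^ i * (5 * (Q + 1)) := Nat.mul_le_mul_left _ hQ2
                _ = 5 ^ (i + 1) * (Q + 1) := by ring)
          refine absurd ?_ (not_le.2 hcon)
          calc 2 ^ (W * t) = 2 ^ (W * (t - W)) * 2 ^ (W ^ 2) := by
                rw [← pow_add]; congr 1
                obtain ⟨t', rfl⟩ : ∃ t', t = t' + W := ⟨t - W, by omega⟩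
                rw [Nat.add_sub_cancel]; ring
            _ ≤ ((𝒟.cls (𝒟.c1 a)).card * 2 ^ (W ^ 2 * (4 * W - (i + 1)))) * 2 ^ (W ^ 2) :=
                Nat.mul_le_mul_right _ k4
            _ = (𝒟.cls (𝒟.c1 a)).card * 2 ^ (W ^ 2 * (4 * W - i)) := by
                rw [mul_assoc, ← pow_add, ← hWt]
            _ ≤ n * 2 ^ (W ^ 2 * (4 * W - i)) := Nat.mul_le_mul_right _ (card_le_card hsub)
        · intro a b hab ha
          rw [𝒞.mem_cls] at ha ⊢
          rw [← hab, ha]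
      have h3W : 2 ^ (W + 2) < 3 * 3 ^ W := by
        obtain ⟨w, rfl⟩ : ∃ w, W = w + 1 := ⟨W - 1, by omega⟩
        have : 2 ^ w ≤ 3 ^ w := Nat.pow_le_pow_left (by norm_num) _
        have h0 : 0 < 2 ^ w := Nat.pow_pos (by norm_num)
        have e1 : 2 ^ (w + 1 + 2) = 8 * 2 ^ w := by ring
        have e2 : 3 * 3 ^ (w + 1) = 9 * 3 ^ w := by ring
        omega
      have hpow2 : 2 ^ (W + 2) = 4 * 2 ^ W := by ring
      have hpow1 : 2 ^ (W + 1) = 2 * 2 ^ W := by ring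
      have key := hB V ι M W 𝒞 ρ (2 ^ (M + W - 5)) (2 ^ (W + 1)) Q (by omega) hW
        (bigRank_of hD (by omega) 𝒞) h2
        (by
          intro a z ha hz haz
          have := hval a z ha hz haz
          rw [hpow1]
          calc 2 * n ≤ 2 * (𝒞.val a (𝒞.c2 a z) * 2 ^ W) := Nat.mul_le_mul_left _ this.le
            _ = 2 * 2 ^ W * 𝒞.val a (𝒞.c2 a z) := by ring)
        hrb hQ1 (par_bound W Q (M + W) (by omega) (by
          have : 2 * W ^ 2 + 10 * W + 15 ≤ 12 * W ^ 3 + 2 * W ^ 2 + 13 * W + 21 := by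
            have : 0 ≤ 12 * W ^ 3 := Nat.zero_le _
            omega
          omega))
      omega

/-- **package MAIN34** -/
theorem main34_of (hB : BlockStmt) (hG : GroMinStmt) (hD : DegStmt) : Main34Stmt := by
  refine ⟨2 ^ 27, ?_⟩
  intro V ι _ _ _ m 𝒞 hn hom
  have hlogn : 1 ≤ Nat.log 2 (Fintype.card V) := Nat.log_pos (by norm_num) hn
  set l := Nat.log 2 (Fintype.card V) with hl
  rcases Nat.lt_or_ge m 104 with hm | hm
  · calc m ^ 4 ≤ 104 ^ 4 := Nat.pow_le_pow_left hm.le 4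
      _ ≤ 2 ^ 27 * 1 := by norm_num
      _ ≤ 2 ^ 27 * l ^ 3 := Nat.mul_le_mul_left _ (Nat.one_le_pow _ _ hlogn)
  · -- the choice of `W`
    obtain ⟨W, hW1, hW2, hW3⟩ : ∃ W, 1 ≤ W ∧ 104 * W ^ 3 ≤ m ∧ m < 104 * (W + 1) ^ 3 := by
      have hP1 : 104 * 1 ^ 3 ≤ m := by omega
      refine ⟨Nat.findGreatest (fun W => 104 * W ^ 3 ≤ m) m, ?_, ?_, ?_⟩
      · exact Nat.le_findGreatest (by omega) hP1
      · exact Nat.findGreatest_spec (P := fun W => 104 * W ^ 3 ≤ m) (show 1 ≤ m by omega) hP1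
      · by_contra hcon
        rw [not_lt] at hcon
        have h1 : Nat.findGreatest (fun W => 104 * W ^ 3 ≤ m) m + 1 ≤ m := by
          set w := Nat.findGreatest (fun W => 104 * W ^ 3 ≤ m) m
          have : w + 1 ≤ (w + 1) ^ 3 := Nat.le_self_pow (by norm_num) _
          omega
        have h2 := Nat.le_findGreatest (P := fun W => 104 * W ^ 3 ≤ m) h1 hcon
        omega
    have hWa : W ≤ W ^ 3 := Nat.le_self_pow (by norm_num) _
    have hWb : W ^ 2 ≤ W ^ 3 := Nat.pow_le_pow_right hW1 (by norm_num)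
    have hWc : 1 ≤ W ^ 3 := Nat.one_le_pow _ _ hW1
    obtain ⟨t, ht⟩ : ∃ t, m = t + (12 * W ^ 3 + 2 * W ^ 2 + 13 * W + 21) :=
      ⟨m - (12 * W ^ 3 + 2 * W ^ 2 + 13 * W + 21), by omega⟩
    have ht2 : m ≤ 2 * (t - 4 * W ^ 2) := by omega
    have ht3 : 4 * W ^ 2 ≤ t := by omega
    obtain ⟨x0⟩ : Nonempty V := Fintype.card_pos_iff.1 (by omega)
    have hcls : 𝒞.cls (𝒞.c1 x0) = univ := by
      ext a
      simp [Cfg.cls, hom a x0]
    have h2 : 2 ≤ (𝒞.cls (𝒞.c1 x0)).card := by rw [hcls, card_univ]; exact hn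
    have key := chain34 hB hG hD V ι W hW1 t m 𝒞 ht.ge (𝒞.c1 x0) 0 (by omega) h2
      (by
        have := Gro.three_rels 𝒞 (by omega) h2
        omega)
    rw [hcls, card_univ, Nat.sub_zero] at key
    have key2 : 2 ^ (W * (t - 4 * W ^ 2)) ≤ Fintype.card V := by
      have e : 2 ^ (W * (t - 4 * W ^ 2)) * 2 ^ (W ^ 2 * (4 * W)) = 2 ^ (W * t) := by
        rw [← pow_add]; congr 1
        obtain ⟨t', rfl⟩ : ∃ t', t = t' + 4 * W ^ 2 := ⟨t - 4 * W ^ 2, by omega⟩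
        rw [Nat.add_sub_cancel]; ring
      rw [← e] at key
      exact Nat.le_of_mul_le_mul_right key (Nat.pow_pos (by norm_num))
    have key3 : W * (t - 4 * W ^ 2) ≤ l := by
      rw [hl, Nat.le_log_iff_pow_le (by norm_num) (by omega)]
      exact key2
    have key4 : W * m ≤ 2 * l := by
      calc W * m ≤ W * (2 * (t - 4 * W ^ 2)) := Nat.mul_le_mul_left _ ht2
        _ = 2 * (W * (t - 4 * W ^ 2)) := by ring
        _ ≤ 2 * l := Nat.mul_le_mul_left _ key3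
    have key5 : (W * m) ^ 3 ≤ (2 * l) ^ 3 := Nat.pow_le_pow_left key4 3
    have hm8 : m ≤ 832 * W ^ 3 := by
      have : (W + 1) ^ 3 ≤ (2 * W) ^ 3 := Nat.pow_le_pow_left (by omega) 3
      have e : (2 * W) ^ 3 = 8 * W ^ 3 := by ring
      omega
    calc m ^ 4 = m * m ^ 3 := by ring
      _ ≤ (832 * W ^ 3) * m ^ 3 := Nat.mul_le_mul_right _ hm8
      _ = 832 * (W * m) ^ 3 := by ring
      _ ≤ 832 * (2 * l) ^ 3 := Nat.mul_le_mul_left _ key5
      _ = 6656 * l ^ 3 := by ring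
      _ ≤ 2 ^ 27 * l ^ 3 := Nat.mul_le_mul_right _ (by norm_num)

end Vale.Agent.P319.SC.H323
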